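import Vale.Agent.P092.RC.Defs

/-!
P092 (helper945), products: the picture `RC.Pic` of a product group `G₁ × H` gives the picture of
the factor `G₁` with the set `W` enlarged by the operators `π (1, h)`. So every argument for one
simple factor (0-1 laws, agreement, no invariant state) applies to each factor of an arbitrary
(also reducible) lattice of a product.
-/

set_option linter.all false

open scoped InnerProductSpace ENNReal
open Filter Topology ContinuousLinearMap MeasureTheory TopologicalSpace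

namespace Vale.Agent.P092.H945.P

open Vale.Agent.P092.RC

variable {G₁ H : Type} [Group G₁] [TopologicalSpace G₁] [Group H] [TopologicalSpace H]

/-- A Moore set of a factor together with the other factor is a Moore set. -/
theorem moore_prod {S : Set G₁} (hS : Moore S) :
    Moore ({p : G₁ × H | p.1 ∈ S ∧ p.2 = 1} ∪ {p : G₁ × H | p.1 = 1}) := by
  intro E _ _ _ u h1 h2 ξ hξ g
  have a1 : ∀ g₁ : G₁, u (g₁, 1) ξ = ξ := by
    intro g₁
    refine hS E (u.comp (MonoidHom.inl G₁ H)) (fun g ξ => h1 _ ξ) (fun ξ => ?_) ξ (fun s hs => ?_) g₁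
    · exact (h2 ξ).comp (continuous_id.prodMk continuous_const)
    · exact hξ (s, 1) (Or.inl ⟨hs, rfl⟩)
  have a2 : ∀ h : H, u (1, h) ξ = ξ := fun h => hξ (1, h) (Or.inr rfl)
  have a3 : u g = u (g.1, 1) * u (1, g.2) := by
    rw [← map_mul, Prod.mk_mul_mk, mul_one, one_mul]
  rw [a3, ContinuousLinearMap.mul_apply, a2, a1]

variable {Γ K : Type} [Group Γ] [NormedAddCommGroup K] [InnerProductSpace ℂ K] [CompleteSpace K]
  {π : G₁ × H →* (K →L[ℂ] K)} {lam : Γ →* (K →L[ℂ] K)} {W : Set (K →L[ℂ] K)} {Ω : K}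

/-- the enlarged set -/
def WH (π : G₁ × H →* (K →L[ℂ] K)) (W : Set (K →L[ℂ] K)) : Set (K →L[ℂ] K) :=
  W ∪ Set.range fun h : H => π (1, h)

theorem cm_WH {T : K →L[ℂ] K} (h : Cm (WH π W) T) : Cm W T := fun w hw => h w (Or.inl hw)

theorem cm_H {T : K →L[ℂ] K} (h : Cm (WH π W) T) (x : H) : T * π (1, x) = π (1, x) * T :=
  h _ (Or.inr ⟨x, rfl⟩)

theorem inv_one' (g : G₁) : ((g, 1) : G₁ × H)⁻¹ = (g⁻¹, 1) := by rw [Prod.inv_mk, inv_one]

theorem comm_fac (π : G₁ × H →* (K →L[ℂ] K)) (g : G₁) (h : H) :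
    π (g, 1) * π (1, h) = π (1, h) * π (g, 1) := by
  rw [← map_mul, ← map_mul, Prod.mk_mul_mk, Prod.mk_mul_mk, mul_one, one_mul, one_mul, mul_one]

theorem comm_all {T : K →L[ℂ] K} (hT : Cm (WH π W) T)
    (h1 : ∀ g : G₁, T * π (g, 1) = π (g, 1) * T) (p : G₁ × H) : T * π p = π p * T := by
  have a3 : π p = π (p.1, 1) * π (1, p.2) := by
    rw [← map_mul, Prod.mk_mul_mk, mul_one, one_mul]
  rw [a3, ← mul_assoc, h1, mul_assoc, cm_H hT, mul_assoc]

theorem comm_set {T : K →L[ℂ] K} (hT : Cm (WH π W) T) {S : Set G₁}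
    (h1 : ∀ g ∈ S, T * π (g, 1) = π (g, 1) * T) :
    ∀ p ∈ ({p : G₁ × H | p.1 ∈ S ∧ p.2 = 1} ∪ {p : G₁ × H | p.1 = 1}), T * π p = π p * T := by
  rintro ⟨g, h⟩ (⟨hg, rfl⟩ | rfl)
  · exact h1 g hg
  · exact cm_H hT h

/-- **The picture of a factor.** -/
theorem pic_factor (P : Pic π lam W Ω) :
    Pic (π.comp (MonoidHom.inl G₁ H)) lam (WH π W) Ω where
  adjP g := by
    change adjoint (π (g, 1)) = π (g⁻¹, 1)
    rw [P.adjP, Prod.inv_mk, inv_one]
  contP ξ := (P.contP ξ).comp (continuous_id.prodMk continuous_const)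
  adjL := P.adjL
  comm g γ := P.comm (g, 1) γ
  Wadj w hw := by
    rcases hw with hw | ⟨h, rfl⟩
    · exact Or.inl (P.Wadj w hw)
    · refine Or.inr ⟨h⁻¹, ?_⟩
      change π (1, h⁻¹) = adjoint (π (1, h))
      rw [P.adjP, Prod.inv_mk, inv_one]
  WP w hw g := by
    rcases hw with hw | ⟨h, rfl⟩
    · have h1 := P.WP w hw (g, 1)
      rw [inv_one'] at h1
      exact Or.inl h1
    · refine Or.inr ⟨h, ?_⟩
      change π (1, h) = π (g, 1) * π (1, h) * π (g⁻¹, 1)
      rw [comm_fac, mul_assoc, ← map_mul, Prod.mk_mul_mk, mul_inv_cancel, one_mul]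
      change _ = π (1, h) * π 1
      rw [map_one, mul_one]
  WL w hw γ := by
    rcases hw with hw | ⟨h, rfl⟩
    · exact P.WL w hw γ
    · exact P.comm (1, h) γ
  nΩ := P.nΩ
  erg S hS T hT hl hS' :=
    P.erg _ (moore_prod hS) T (cm_WH hT) hl (comm_set hT hS')
  tr_adj T hT := P.tr_adj T (cm_WH hT)
  tr_conj T hT g := by
    have h1 := P.tr_conj T (cm_WH hT) (g, 1)
    rw [inv_one'] at h1
    exact h1
  tr_zero T hT := P.tr_zero T (cm_WH hT)
  hs_erg S hS T hT ht hS' :=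
    P.hs_erg _ (moore_prod hS) T (cm_WH hT) ht (comm_set hT hS')
  inv T hT hg γ := P.inv T (cm_WH hT) (comm_all hT hg) γ

end Vale.Agent.P092.H945.P
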